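import Vale.Agent.P207.FDefs3
import Vale.Agent.P207.Bridge
import Vale.Agent.P207.Q.H545.Step5

/-!
# P207: strict quarter pinching on the orthonormal frame bundle
-/

open scoped Manifold ContDiff ENNReal Topology
open Bundle MeasureTheory Set Filter

set_option maxSynthPendingDepth 3

noncomputable section

namespace Vale.Agent.P207.Q.H717

open Vale.Agent.P255 (RMetric coefIn Gam Riem IsGeo Metric trans coefL)
open Vale.Agent.P207 Vale.Agent.P207.Q Vale.Agent.P207.Q.H892 Vale.Agent.P207.Q.H545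
open Vale.Agent.P207F (QuarterPinched gramDet ConstCurvature)

variable {n : ℕ} {M : Type} [TopologicalSpace M] [ChartedSpace (EV n) M]
  [IsManifold 𝓘(ℝ, EV n) ∞ M] {g : RMetric (EV n) M}

/-- the curvature functions are continuous on the frame bundle -/
theorem continuous_Rf [NeZero n] (g : RMetric (EV n) M) (i j k l : Fin n) :
    Continuous (fun f : Fr g => Rf g f i j k l) := by
  have : Nonempty (Fin n) := ⟨0⟩
  rw [continuous_iff_continuousAt]
  intro f₀
  set a := f₀.pt with ha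
  have hm := (mt g).isMetricOn a
  have hsrc : f₀.pt ∈ (chartAt (EV n) a).source := mem_chart_source _ _
  have hev : ∀ᶠ f : Fr g in 𝓝 f₀, f.pt ∈ (chartAt (EV n) a).source :=
    Fr.continuous_pt.continuousAt ((chartAt (EV n) a).open_source.mem_nhds hsrc)
  have h1 : (fun f : Fr g => Rf g f i j k l) =ᶠ[𝓝 f₀] fun f => (mt g).coef a (chF a f.1).1
      (D1.curvT ((mt g).coef a) (chF a f.1).1 ((chF a f.1).2 i) ((chF a f.1).2 j)
        ((chF a f.1).2 k)) ((chF a f.1).2 l) := by
    filter_upwards [hev] with f hf using Rf_eq f i j k l hf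
  refine ContinuousAt.congr ?_ h1.symm
  have hu : (chF a f₀.1).1 ∈ (chartAt (EV n) a).target := (chartAt (EV n) a).map_source hsrc
  have hc : ContinuousAt (fun f : Fr g => chF a f.1) f₀ :=
    ContinuousAt.comp (f := fun f : Fr g => f.1) (g := chF a) (continuousAt_chF a hsrc)
      Fr.continuous_val.continuousAt
  have hc1 : ContinuousAt (fun f : Fr g => (chF a f.1).1) f₀ := hc.fst
  have hc2 : ∀ i, ContinuousAt (fun f : Fr g => (chF a f.1).2 i) f₀ := fun i =>
    (continuous_apply i).continuousAt.comp hc.snd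
  have hG : ContinuousAt (fun f : Fr g => (mt g).coef a (chF a f.1).1) f₀ :=
    ContinuousAt.comp (f := fun f : Fr g => (chF a f.1).1) (hm.contDiffAt hu).continuousAt hc1
  have hR : ContinuousAt (fun f : Fr g => D1.curvT ((mt g).coef a) (chF a f.1).1) f₀ :=
    ContinuousAt.comp (f := fun f : Fr g => (chF a f.1).1)
      (D1.contDiffAt_curvT hm hu).continuousAt hc1
  exact (hG.clm_apply (((hR.clm_apply (hc2 i)).clm_apply (hc2 j)).clm_apply (hc2 k))).clm_apply
    (hc2 l)

/-- the curvature form in the chart centered at the foot point of a frame -/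
theorem Rf_chart (f : Fr g) (i j k l : Fin n) : Rf g f i j k l =
    (mt g).coef f.pt (chartAt (EV n) f.pt f.pt)
      (D1.curvT ((mt g).coef f.pt) (chartAt (EV n) f.pt f.pt) (f.e i) (f.e j) (f.e k)) (f.e l) := rfl

/-- the coefficients at the center of a chart are the inner product -/
theorem coef_self (g : RMetric (EV n) M) (x : M) (v w : EV n) :
    (mt g).coef x (chartAt (EV n) x x) v w = innerB g x v w := ip_eq g x v w

theorem coefIn_self' (g : RMetric (EV n) M) (x : M) (v w : EV n) :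
    coefIn g x (chartAt (EV n) x x) v w = innerB g x v w := coef_self g x v w

/-- the sectional curvature of two tangent vectors at `x`: `⟨R(v,w)w, v⟩` -/
def secc (g : RMetric (EV n) M) (x : M) (v w : EV n) : ℝ :=
  coefIn g x (chartAt (EV n) x x) (Riem (coefIn g x) (chartAt (EV n) x x) v w w) v

theorem secc_eq (g : RMetric (EV n) M) (x : M) (v w : EV n) : secc g x v w =
    (mt g).coef x (chartAt (EV n) x x)
      (D1.curvT ((mt g).coef x) (chartAt (EV n) x x) v w w) v := by
  unfold secc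
  rw [D1.riem_mt g x (mem_chart_target _ _)]
  rfl

theorem linearIndependent_of_orth (g : RMetric (EV n) M) (x : M) {v w : EV n}
    (hv : innerB g x v v = 1) (hvw : innerB g x v w = 0) (hw : innerB g x w w ≠ 0) :
    LinearIndependent ℝ ![v, w] := by
  rw [LinearIndependent.pair_iff]
  intro a b hab
  have h1 : innerB g x (a • v + b • w) v = a := by
    have h2 : innerB g x w v = 0 := by
      rw [← hvw]; exact g.symm x w v
    simp [map_add, map_smul, hv, h2]
  have h3 : innerB g x (a • v + b • w) w = b * innerB g x w w := by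
    simp [map_add, map_smul, hvw]
  rw [hab] at h1 h3
  simp only [map_zero, zero_apply] at h1 h3
  refine ⟨h1.symm, ?_⟩
  rcases mul_eq_zero.1 h3.symm with h4 | h4
  · exact h4
  · exact absurd h4 hw

/-- Strict quarter pinching on the frame bundle. -/
theorem exists_bounds [NeZero n] [CompactSpace M] [T2Space M] {i₀ i₁ : Fin n} (hi : i₀ ≠ i₁)
    (h : QuarterPinched g) :
    ∃ lam Lam : ℝ, 0 < lam ∧ lam ≤ Lam ∧ Lam < 2 * lam ∧ ∀ f : Fr g,
      lam ^ 2 ≤ - Rf g f i₁ i₀ i₀ i₁ ∧ - Rf g f i₁ i₀ i₀ i₁ ≤ Lam ^ 2 := by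
  obtain ⟨k, hk, hp⟩ := h
  set lam := Real.sqrt k with hlam
  have hlam0 : 0 < lam := Real.sqrt_pos.2 hk
  have hlam2 : lam ^ 2 = k := Real.sq_sqrt hk.le
  have hfr : ∀ f : Fr g, k ≤ - Rf g f i₁ i₀ i₀ i₁ ∧ - Rf g f i₁ i₀ i₀ i₁ < 4 * k := by
    intro f
    have hu : chartAt (EV n) f.pt f.pt ∈ (chartAt (EV n) f.pt).target := mem_chart_target _ _
    have h1 : innerB g f.pt (f.e i₁) (f.e i₁) = 1 := by
      have := f.inner_e i₁ i₁
      rwa [if_pos rfl] at this
    have h0 : innerB g f.pt (f.e i₀) (f.e i₀) = 1 := by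
      have := f.inner_e i₀ i₀
      rwa [if_pos rfl] at this
    have h10 : innerB g f.pt (f.e i₁) (f.e i₀) = 0 := by
      have := f.inner_e i₁ i₀
      rwa [if_neg hi.symm] at this
    have hli := linearIndependent_of_orth g f.pt h1 h10 (by rw [h0]; exact one_ne_zero)
    obtain ⟨h2, h3⟩ := hp f.pt _ hu _ _ hli
    have hg : gramDet g f.pt (chartAt (EV n) f.pt f.pt) (f.e i₁) (f.e i₀) = 1 := by
      unfold gramDet
      rw [coefIn_self', coefIn_self', coefIn_self', h1, h0, h10]
      norm_num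
    have hs : coefIn g f.pt (chartAt (EV n) f.pt f.pt)
        (Riem (coefIn g f.pt) (chartAt (EV n) f.pt f.pt) (f.e i₁) (f.e i₀) (f.e i₀)) (f.e i₁) =
        Rf g f i₁ i₀ i₀ i₁ := secc_eq g f.pt (f.e i₁) (f.e i₀)
    rw [hg, hs] at h2 h3
    constructor <;> linarith
  rcases isEmpty_or_nonempty (Fr g) with hE | hE
  · exact ⟨lam, lam, hlam0, le_rfl, by linarith, fun f => (hE.false f).elim⟩
  · have hc : Continuous (fun f : Fr g => - Rf g f i₁ i₀ i₀ i₁) := (continuous_Rf g _ _ _ _).neg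
    obtain ⟨f₀, -, hf₀⟩ := isCompact_univ.exists_isMaxOn (univ_nonempty (α := Fr g)) hc.continuousOn
    set K := - Rf g f₀ i₁ i₀ i₀ i₁ with hK
    have hmax : ∀ f : Fr g, - Rf g f i₁ i₀ i₀ i₁ ≤ K := fun f => hf₀ (mem_univ f)
    have hK1 : k ≤ K := (hfr f₀).1
    have hK2 : K < 4 * k := (hfr f₀).2
    refine ⟨lam, Real.sqrt K, hlam0, Real.sqrt_le_sqrt hK1, ?_, fun f => ⟨?_, ?_⟩⟩
    · have h4 : Real.sqrt K < Real.sqrt (4 * k) := Real.sqrt_lt_sqrt (by linarith) hK2
      have h5 : Real.sqrt (4 * k) = 2 * lam := by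
        rw [hlam, Real.sqrt_mul (by norm_num)]
        congr 1
        rw [show (4 : ℝ) = 2 ^ 2 by norm_num, Real.sqrt_sq (by norm_num)]
      rwa [h5] at h4
    · rw [hlam2]; exact (hfr f).1
    · rw [Real.sq_sqrt (by linarith)]; exact hmax f

theorem gramDet_pos (g : RMetric (EV n) M) {a : M} {u : EV n}
    (hu : u ∈ (chartAt (EV n) a).target) {v w : EV n} (h : LinearIndependent ℝ ![v, w]) :
    0 < gramDet g a u v w := by
  have hpos : ∀ z : EV n, z ≠ 0 → 0 < (mt g).coef a u z z := fun z hz =>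
    ((mt g).isMetricOn a).pos u hu z hz
  have hsymm : ∀ x y : EV n, (mt g).coef a u x y = (mt g).coef a u y x := fun x y =>
    ((mt g).isMetricOn a).symm u hu x y
  have hw : w ≠ 0 := h.ne_zero 1
  have hww := hpos w hw
  set z := (mt g).coef a u w w • v - (mt g).coef a u v w • w with hz
  have hz0 : z ≠ 0 := by
    intro h0
    rw [LinearIndependent.pair_iff] at h
    have := (h ((mt g).coef a u w w) (-(mt g).coef a u v w) (by
      rw [neg_smul, ← sub_eq_add_neg]; exact h0)).1
    exact hww.ne' this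
  have h1 := hpos z hz0
  have h2 : (mt g).coef a u z z = (mt g).coef a u w w * ((mt g).coef a u v v *
      (mt g).coef a u w w - (mt g).coef a u v w ^ 2) := by
    rw [hz]
    simp only [map_sub, map_smul, sub_apply, smul_apply, smul_eq_mul]
    rw [hsymm w v]
    ring
  rw [h2] at h1
  exact pos_of_mul_pos_right h1 hww.le

theorem negCurvature_of_pinched (h : QuarterPinched g) : NegCurvature g := by
  obtain ⟨k, hk, hp⟩ := h
  intro a u hu v w hvw
  have h1 := (hp a u hu v w hvw).2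
  have h2 := gramDet_pos g hu hvw
  nlinarith

/-- The quadratic form `-⟨R(·,e₀)e₀,·⟩` on the orthogonal complement of `e₀`. -/
theorem quadratic_bounds {M : Type} [TopologicalSpace M] [ChartedSpace (EV 3) M]
    [IsManifold 𝓘(ℝ, EV 3) ∞ M] {g : RMetric (EV 3) M} {l L : ℝ}
    (h : ∀ f : Fr g, l ≤ - Rf g f 1 0 0 1 ∧ - Rf g f 1 0 0 1 ≤ L) (f : Fr g) (x y : ℝ) :
    l * (x ^ 2 + y ^ 2) ≤ x ^ 2 * (- Rf g f 1 0 0 1) + 2 * x * y * (- Rf g f 1 0 0 2) +
        y ^ 2 * (- Rf g f 2 0 0 2) ∧
      x ^ 2 * (- Rf g f 1 0 0 1) + 2 * x * y * (- Rf g f 1 0 0 2) +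
        y ^ 2 * (- Rf g f 2 0 0 2) ≤ L * (x ^ 2 + y ^ 2) := by
  have hin : ∀ i j : Fin 3, innerB g f.pt (f.e i) (f.e j) = if i = j then 1 else 0 :=
    fun i j => f.inner_e i j
  rcases eq_or_ne (x ^ 2 + y ^ 2) 0 with h0 | h0
  · have hx : x = 0 := by nlinarith [sq_nonneg x, sq_nonneg y]
    have hy : y = 0 := by nlinarith [sq_nonneg x, sq_nonneg y]
    subst hx; subst hy
    simp
  · have hpos : 0 < x ^ 2 + y ^ 2 := lt_of_le_of_ne (by positivity) (Ne.symm h0)
    set r := Real.sqrt (x ^ 2 + y ^ 2) with hr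
    have hr0 : 0 < r := Real.sqrt_pos.2 hpos
    have hr2 : r ^ 2 = x ^ 2 + y ^ 2 := Real.sq_sqrt hpos.le
    set w : EV 3 := (x / r) • f.e 1 + (y / r) • f.e 2 with hw
    have hww : innerB g f.pt w w = 1 := by
      rw [hw]
      simp only [map_add, map_smul, add_apply, smul_apply, smul_eq_mul, hin]
      simp
      field_simp
      linarith
    have hvw : innerB g f.pt (f.e 0) w = 0 := by
      rw [hw]
      simp only [map_add, map_smul, smul_eq_mul, hin]
      simp
    obtain ⟨f', hf', hf0, hf1⟩ := exists_frame_pair (g := g) (i₀ := (0 : Fin 3)) (i₁ := 1)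
      (by decide) f.pt (v := f.e 0) (w := w) (by rw [hin]; simp) hvw hww
    have e1 : ∀ f : Fr g, Rf g f 1 0 0 1 = secc g f.pt (f.e 1) (f.e 0) := fun f =>
      (secc_eq g f.pt (f.e 1) (f.e 0)).symm
    have h1 := h f'
    rw [e1, hf', hf0, hf1, secc_eq] at h1
    have hm := (mt g).isMetricOn f.pt
    have hu : chartAt (EV 3) f.pt f.pt ∈ (chartAt (EV 3) f.pt).target := mem_chart_target _ _
    have hs := D1.curvT_jacobi_symm hm hu (f.e 1) (f.e 0) (f.e 2)
    have e2 : (mt g).coef f.pt (chartAt (EV 3) f.pt f.pt)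
        (D1.curvT ((mt g).coef f.pt) (chartAt (EV 3) f.pt f.pt) w (f.e 0) (f.e 0)) w =
        (x ^ 2 * Rf g f 1 0 0 1 + 2 * x * y * Rf g f 1 0 0 2 + y ^ 2 * Rf g f 2 0 0 2) / r ^ 2 := by
      rw [Rf_chart, Rf_chart, Rf_chart, hw]
      simp only [map_add, map_smul, add_apply, smul_apply, smul_eq_mul]
      rw [← hs]
      field_simp
      ring
    rw [e2, hr2] at h1
    obtain ⟨h2, h3⟩ := h1
    rw [← neg_div, le_div_iff₀ hpos] at h2
    rw [← neg_div, div_le_iff₀ hpos] at h3
    constructor <;> linarith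

end Vale.Agent.P207.Q.H717
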