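import Vale.Agent.P207.C1.Psi
import Vale.Agent.P207.Q.H892.Meas

/-!
# P207: the transfer function on the orthonormal frame bundle
-/

open scoped Manifold ContDiff ENNReal Topology
open Bundle MeasureTheory Set Filter

noncomputable section

namespace Vale.Agent.P207.Q.H717

open Vale.Agent.P255 (RMetric coefIn Gam Riem IsGeo Metric Npc ExpSys toMetric geo expg cc)
open Vale.Agent.P207.Q (MFlow WW)

variable {n : ℕ} {M : Type} [TopologicalSpace M] [ChartedSpace (EV n) M]
  [IsManifold 𝓘(ℝ, EV n) ∞ M] {g : RMetric (EV n) M}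

/-- the cocycle upstairs is the pull-back of the cocycle downstairs -/
theorem WW_lift {X Y : Type} {Φ : ℝ → X → X} {φ : ℝ → Y → Y} {q : X → Y}
    (h : ∀ t x, q (Φ t x) = φ t (q x)) (w : Y → ℝ) (T : ℝ) (x : X) :
    WW Φ (fun x => w (q x)) T x = WW φ w T (q x) := by
  unfold WW
  simp_rw [h]

/-- The pull-back of an integrable transfer function along a measure preserving factor map. -/
theorem lift_cocycle {X Y : Type} [MeasurableSpace X] [MeasurableSpace Y] {mX : Measure X}
    {mY : Measure Y} {Φ : ℝ → X → X} {φ : ℝ → Y → Y} {q : X → Y} (hq : MeasurePreserving q mX mY)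
    (h : ∀ t x, q (Φ t x) = φ t (q x)) {w ψ : Y → ℝ} (hψm : Measurable ψ) (hψ : Integrable ψ mY)
    (hc : ∀ T, ∀ᵐ y ∂mY, ψ (φ T y) - ψ y = WW φ w T y) :
    Measurable (fun x => ψ (q x)) ∧ Integrable (fun x => ψ (q x)) mX ∧
      ∀ T, ∀ᵐ x ∂mX, ψ (q (Φ T x)) - ψ (q x) = WW Φ (fun x => w (q x)) T x := by
  refine ⟨hψm.comp hq.measurable, hq.integrable_comp_of_integrable hψ, fun T => ?_⟩
  have h1 := hq.quasiMeasurePreserving.ae (hc T)
  filter_upwards [h1] with x hx
  rw [h, hx, WW_lift h]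

/-- **Step 0 on the frame bundle.** If the two entropies are equal and `t` satisfies the Jacobian
bounds, there is a transfer function `ψ` on `UT g`, whose pull-back to the frame bundle is
integrable and satisfies the cocycle equation for every flow `Φ` which covers the geodesic
flow. -/
theorem exists_psi_fr [CompactSpace M] [T2Space M] [NeZero n] (hn : 2 ≤ n) [ConnectedSpace M]
    [MeasurableSpace M] [BorelSpace M] {φ : ℝ → UT g → UT g} (hφ : IsGeoFlow g φ)
    (h : NegCurvature g) {μ : Measure M} {m : Measure (UT g)} (hμ : IsRiemVol g μ)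
    (hm : IsLiouville g μ m) (heq : ksEntropy m (φ 1) = topEntropy (φ 1)) {t : UT g → ℝ}
    (ht : Continuous t) (hU : JacUpper φ t) (hL : JacLower φ t) {mP : Measure (Fr g)}
    (hP : MeasurePreserving (fun f : Fr g => f.ut 0) mP m) {Φ : ℝ → Fr g → Fr g}
    (hΦ : ∀ T f, (Φ T f).ut 0 = φ T (f.ut 0)) :
    ∃ ψ : UT g → ℝ, Measurable ψ ∧ Integrable ψ m ∧
      Measurable (fun f : Fr g => ψ (f.ut 0)) ∧ Integrable (fun f : Fr g => ψ (f.ut 0)) mP ∧
      ∀ T, ∀ᵐ f ∂mP, ψ ((Φ T f).ut 0) - ψ (f.ut 0) =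
        WW Φ (fun f => t (f.ut 0) - (topEntropy (φ 1)).toReal) T f := by
  obtain ⟨ψ, h1, h2, h3, -⟩ := exists_psi hn hφ h hμ hm heq ht hU hL
  obtain ⟨h4, h5, h6⟩ := lift_cocycle (w := fun p => t p - (topEntropy (φ 1)).toReal)
    hP hΦ h1 h2 h3
  exact ⟨ψ, h1, h2, h4, h5, h6⟩

end Vale.Agent.P207.Q.H717
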