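import Vale.Agent.P207.Q.H717.PDefs
import Vale.Agent.P207.Q.H717.Pinch

/-!
# P207: pointwise pinching on the orthonormal frame bundle
-/

open scoped Manifold ContDiff ENNReal Topology
open Bundle MeasureTheory Set Filter

set_option maxSynthPendingDepth 3

noncomputable section

namespace Vale.Agent.P207.Q.H717

open Vale.Agent.P255 (RMetric coefIn Gam Riem IsGeo Metric trans coefL)
open Vale.Agent.P207 Vale.Agent.P207.Q Vale.Agent.P207.Q.H892 Vale.Agent.P207.Q.H545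
open Vale.Agent.P207F (QuarterPinched PointwisePinched RelPinched gramDet ConstCurvature)

variable {n : ℕ} {M : Type} [TopologicalSpace M] [ChartedSpace (EV n) M]
  [IsManifold 𝓘(ℝ, EV n) ∞ M] {g : RMetric (EV n) M}

/-- the Gram determinant and the sectional curvature of two vectors of a frame -/
theorem frame_pair (g : RMetric (EV n) M) {i₀ i₁ : Fin n} (hi : i₀ ≠ i₁) (f : Fr g) :
    LinearIndependent ℝ ![f.e i₁, f.e i₀] ∧
    gramDet g f.pt (chartAt (EV n) f.pt f.pt) (f.e i₁) (f.e i₀) = 1 ∧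
    coefIn g f.pt (chartAt (EV n) f.pt f.pt)
        (Riem (coefIn g f.pt) (chartAt (EV n) f.pt f.pt) (f.e i₁) (f.e i₀) (f.e i₀)) (f.e i₁) =
        Rf g f i₁ i₀ i₀ i₁ := by
  have h1 : innerB g f.pt (f.e i₁) (f.e i₁) = 1 := by
    have := f.inner_e i₁ i₁
    rwa [if_pos rfl] at this
  have h0 : innerB g f.pt (f.e i₀) (f.e i₀) = 1 := by
    have := f.inner_e i₀ i₀
    rwa [if_pos rfl] at this
  have h10 : innerB g f.pt (f.e i₁) (f.e i₀) = 0 := by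
    have := f.inner_e i₁ i₀
    rwa [if_neg hi.symm] at this
  refine ⟨linearIndependent_of_orth g f.pt h1 h10 (by rw [h0]; exact one_ne_zero), ?_,
    secc_eq g f.pt (f.e i₁) (f.e i₀)⟩
  unfold gramDet
  rw [coefIn_self', coefIn_self', coefIn_self', h1, h0, h10]
  norm_num

/-- positivity and compactness: global constants -/
theorem exists_bounds_of_pos [NeZero n] [CompactSpace M] [T2Space M] {i₀ i₁ : Fin n}
    (h : ∀ f : Fr g, 0 < - Rf g f i₁ i₀ i₀ i₁) :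
    ∃ lam Lam : ℝ, 0 < lam ∧ lam ≤ Lam ∧ ∀ f : Fr g,
      lam ^ 2 ≤ - Rf g f i₁ i₀ i₀ i₁ ∧ - Rf g f i₁ i₀ i₀ i₁ ≤ Lam ^ 2 := by
  rcases isEmpty_or_nonempty (Fr g) with hE | hE
  · exact ⟨1, 1, one_pos, le_rfl, fun f => (hE.false f).elim⟩
  · have hc : Continuous (fun f : Fr g => - Rf g f i₁ i₀ i₀ i₁) := (continuous_Rf g _ _ _ _).neg
    obtain ⟨f₀, -, hf₀⟩ := isCompact_univ.exists_isMaxOn (univ_nonempty (α := Fr g)) hc.continuousOn
    obtain ⟨f₁, -, hf₁⟩ := isCompact_univ.exists_isMinOn (univ_nonempty (α := Fr g)) hc.continuousOn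
    have hmax : ∀ f : Fr g, - Rf g f i₁ i₀ i₀ i₁ ≤ - Rf g f₀ i₁ i₀ i₀ i₁ :=
      fun f => hf₀ (mem_univ f)
    have hmin : ∀ f : Fr g, - Rf g f₁ i₁ i₀ i₀ i₁ ≤ - Rf g f i₁ i₀ i₀ i₁ :=
      fun f => hf₁ (mem_univ f)
    refine ⟨Real.sqrt (- Rf g f₁ i₁ i₀ i₀ i₁), Real.sqrt (- Rf g f₀ i₁ i₀ i₀ i₁),
      Real.sqrt_pos.2 (h f₁), Real.sqrt_le_sqrt (hmin f₀), fun f => ⟨?_, ?_⟩⟩
    · rw [Real.sq_sqrt (h f₁).le]; exact hmin f
    · rw [Real.sq_sqrt (h f₀).le]; exact hmax f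

theorem negCurvature_of_pointwise (h : PointwisePinched g) : NegCurvature g := by
  intro a u hu v w hvw
  obtain ⟨k, hk, hp⟩ := h a u hu
  have h1 := (hp v w hvw).2
  have h2 := gramDet_pos g hu hvw
  nlinarith

theorem negCurvature_of_rel (h : RelPinched g) : NegCurvature g := by
  obtain ⟨κ, hκ, h⟩ := h
  intro a u hu v w hvw
  obtain ⟨k, hk, hp⟩ := h a u hu
  have h1 := (hp v w hvw).2
  have h2 := gramDet_pos g hu hvw
  have h3 : 0 < k := hκ.trans_le hk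
  nlinarith

/-- on frames: negative curvature -/
theorem neg_Rf_pos (h : NegCurvature g) {i₀ i₁ : Fin n} (hi : i₀ ≠ i₁) (f : Fr g) :
    0 < - Rf g f i₁ i₀ i₀ i₁ := by
  obtain ⟨h1, -, h3⟩ := frame_pair g hi f
  have h4 := h f.pt _ (mem_chart_target _ _) _ _ h1
  rw [h3] at h4
  linarith

/-- **global constants for negative curvature** -/
theorem exists_bounds_of_neg [NeZero n] [CompactSpace M] [T2Space M] {i₀ i₁ : Fin n}
    (hi : i₀ ≠ i₁) (h : NegCurvature g) :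
    ∃ lam Lam : ℝ, 0 < lam ∧ lam ≤ Lam ∧ ∀ f : Fr g,
      lam ^ 2 ≤ - Rf g f i₁ i₀ i₀ i₁ ∧ - Rf g f i₁ i₀ i₀ i₁ ≤ Lam ^ 2 :=
  exists_bounds_of_pos fun f => neg_Rf_pos h hi f

/-- every direction orthogonal to `e₀` is the second vector of a frame -/
theorem exists_quad {M : Type} [TopologicalSpace M] [ChartedSpace (EV 3) M]
    [IsManifold 𝓘(ℝ, EV 3) ∞ M] {g : RMetric (EV 3) M} (f : Fr g) {x y : ℝ}
    (hxy : x ^ 2 + y ^ 2 = 1) : ∃ f' : Fr g, f'.pt = f.pt ∧ Rf g f' 1 0 0 1 =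
      x ^ 2 * Rf g f 1 0 0 1 + 2 * x * y * Rf g f 1 0 0 2 + y ^ 2 * Rf g f 2 0 0 2 := by
  have hin : ∀ i j : Fin 3, innerB g f.pt (f.e i) (f.e j) = if i = j then 1 else 0 :=
    fun i j => f.inner_e i j
  set w : EV 3 := x • f.e 1 + y • f.e 2 with hw
  have hww : innerB g f.pt w w = 1 := by
    rw [hw]
    simp only [map_add, map_smul, add_apply, smul_apply, smul_eq_mul, hin]
    simp
    linarith
  have hvw : innerB g f.pt (f.e 0) w = 0 := by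
    rw [hw]
    simp only [map_add, map_smul, smul_eq_mul, hin]
    simp
  obtain ⟨f', hf', hf0, hf1⟩ := exists_frame_pair (g := g) (i₀ := (0 : Fin 3)) (i₁ := 1)
    (by decide) f.pt (v := f.e 0) (w := w) (by rw [hin]; simp) hvw hww
  refine ⟨f', hf', ?_⟩
  have e1 : Rf g f' 1 0 0 1 = secc g f'.pt (f'.e 1) (f'.e 0) :=
    (secc_eq g f'.pt (f'.e 1) (f'.e 0)).symm
  have hm := (mt g).isMetricOn f.pt
  have hu : chartAt (EV 3) f.pt f.pt ∈ (chartAt (EV 3) f.pt).target := mem_chart_target _ _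
  have hs := D1.curvT_jacobi_symm hm hu (f.e 1) (f.e 0) (f.e 2)
  rw [e1, hf', hf0, hf1, secc_eq, Rf_chart, Rf_chart, Rf_chart, hw]
  simp only [map_add, map_smul, add_apply, smul_apply, smul_eq_mul]
  rw [← hs]
  ring

/-- The quadratic form `-⟨R(·,e₀)e₀,·⟩` on the orthogonal complement of `e₀`, at one point. -/
theorem quadratic_bounds_at {M : Type} [TopologicalSpace M] [ChartedSpace (EV 3) M]
    [IsManifold 𝓘(ℝ, EV 3) ∞ M] {g : RMetric (EV 3) M} {l L : ℝ} (f : Fr g)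
    (h : ∀ f' : Fr g, f'.pt = f.pt → l ≤ - Rf g f' 1 0 0 1 ∧ - Rf g f' 1 0 0 1 ≤ L) (x y : ℝ) :
    l * (x ^ 2 + y ^ 2) ≤ x ^ 2 * (- Rf g f 1 0 0 1) + 2 * x * y * (- Rf g f 1 0 0 2) +
        y ^ 2 * (- Rf g f 2 0 0 2) ∧
      x ^ 2 * (- Rf g f 1 0 0 1) + 2 * x * y * (- Rf g f 1 0 0 2) +
        y ^ 2 * (- Rf g f 2 0 0 2) ≤ L * (x ^ 2 + y ^ 2) := by
  rcases eq_or_ne (x ^ 2 + y ^ 2) 0 with h0 | h0
  · have hx : x = 0 := by nlinarith [sq_nonneg x, sq_nonneg y]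
    have hy : y = 0 := by nlinarith [sq_nonneg x, sq_nonneg y]
    subst hx; subst hy
    simp
  · have hpos : 0 < x ^ 2 + y ^ 2 := lt_of_le_of_ne (by positivity) (Ne.symm h0)
    set r := Real.sqrt (x ^ 2 + y ^ 2) with hr
    have hr0 : 0 < r := Real.sqrt_pos.2 hpos
    have hr2 : r ^ 2 = x ^ 2 + y ^ 2 := Real.sq_sqrt hpos.le
    obtain ⟨f', hf', he⟩ := exists_quad f (x := x / r) (y := y / r) (by
      rw [div_pow, div_pow, ← add_div, hr2, div_self hpos.ne'])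
    have h1 := h f' hf'
    have e2 : Rf g f' 1 0 0 1 =
        (x ^ 2 * Rf g f 1 0 0 1 + 2 * x * y * Rf g f 1 0 0 2 + y ^ 2 * Rf g f 2 0 0 2) / r ^ 2 := by
      rw [he]
      field_simp
    rw [e2, hr2] at h1
    obtain ⟨h2, h3⟩ := h1
    rw [← neg_div, le_div_iff₀ hpos] at h2
    rw [← neg_div, div_le_iff₀ hpos] at h3
    constructor <;> linarith

/-- bounds of a binary quadratic form and its trace-free part -/
theorem tracefree_le {a b c l L : ℝ}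
    (h : ∀ x y : ℝ, l * (x ^ 2 + y ^ 2) ≤ x ^ 2 * a + 2 * x * y * b + y ^ 2 * c ∧
      x ^ 2 * a + 2 * x * y * b + y ^ 2 * c ≤ L * (x ^ 2 + y ^ 2)) :
    Real.sqrt (((a - c) / 2) ^ 2 + b ^ 2) ≤ (a + c) / 2 - l ∧
      Real.sqrt (((a - c) / 2) ^ 2 + b ^ 2) ≤ L - (a + c) / 2 := by
  have d1 : b ^ 2 ≤ (a - l) * (c - l) := by
    have := discrim_le_zero (a := a - l) (b := 2 * b) (c := c - l) (fun x => by
      nlinarith [(h x 1).1])
    unfold discrim at this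
    nlinarith
  have d2 : b ^ 2 ≤ (L - a) * (L - c) := by
    have := discrim_le_zero (a := L - a) (b := -2 * b) (c := L - c) (fun x => by
      nlinarith [(h x 1).2])
    unfold discrim at this
    nlinarith
  have e1 := (h 1 0).1
  have e2 := (h 0 1).1
  have e3 := (h 1 0).2
  have e4 := (h 0 1).2
  constructor
  · rw [Real.sqrt_le_left (by nlinarith)]
    nlinarith
  · rw [Real.sqrt_le_left (by nlinarith)]
    nlinarith

/-- **Pointwise `12/5`-pinching on frames.** -/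
theorem pointwise_frames {M : Type} [TopologicalSpace M] [ChartedSpace (EV 3) M]
    [IsManifold 𝓘(ℝ, EV 3) ∞ M] {g : RMetric (EV 3) M} (h : PointwisePinched g) (f : Fr g) :
    ((- Rf g f 1 0 0 1 - - Rf g f 2 0 0 2) / 2) ^ 2 + (- Rf g f 1 0 0 2) ^ 2 ≤
        (7 / 34) ^ 2 * (- Rf g f 1 0 0 1 + - Rf g f 2 0 0 2) ^ 2 ∧
      0 < - Rf g f 1 0 0 1 + - Rf g f 2 0 0 2 := by
  obtain ⟨k, hk, hp⟩ := h f.pt _ (mem_chart_target _ _)
  have hb : ∀ f' : Fr g, f'.pt = f.pt →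
      k ≤ - Rf g f' 1 0 0 1 ∧ - Rf g f' 1 0 0 1 ≤ 12 / 5 * k := by
    intro f' hf'
    obtain ⟨h1, h2, h3⟩ := frame_pair g (i₀ := (0 : Fin 3)) (i₁ := 1) (by decide) f'
    rw [hf'] at h2 h3
    obtain ⟨h4, h5⟩ := hp _ _ h1
    rw [h2, h3] at h4 h5
    constructor <;> linarith
  have hq := quadratic_bounds_at f hb
  obtain ⟨t1, t2⟩ := tracefree_le hq
  have e1 := (hq 1 0).1
  have e2 := (hq 0 1).1
  refine ⟨?_, by nlinarith⟩
  set s := Real.sqrt (((- Rf g f 1 0 0 1 - - Rf g f 2 0 0 2) / 2) ^ 2 + (- Rf g f 1 0 0 2) ^ 2)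
    with hs
  have hs2 : s ^ 2 = ((- Rf g f 1 0 0 1 - - Rf g f 2 0 0 2) / 2) ^ 2 + (- Rf g f 1 0 0 2) ^ 2 :=
    Real.sq_sqrt (by positivity)
  have hs0 : 0 ≤ s := Real.sqrt_nonneg _
  rw [← hs2, ← mul_pow]
  refine pow_le_pow_left₀ hs0 ?_ 2
  linarith

/-- **Relative pinching on frames.** -/
theorem rel_frames {M : Type} [TopologicalSpace M] [ChartedSpace (EV 3) M]
    [IsManifold 𝓘(ℝ, EV 3) ∞ M] {g : RMetric (EV 3) M} (h : RelPinched g) :
    ∃ ν : ℝ, 0 < ν ∧ ∀ f : Fr g,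
      (∀ x y : ℝ, ν ^ 2 * (x ^ 2 + y ^ 2) ≤ x ^ 2 * (- Rf g f 1 0 0 1) +
        2 * x * y * (- Rf g f 1 0 0 2) + y ^ 2 * (- Rf g f 2 0 0 2)) ∧
      (∀ x y x' y' : ℝ, x ^ 2 + y ^ 2 = 1 → x' ^ 2 + y' ^ 2 = 1 →
        x ^ 2 * (- Rf g f 1 0 0 1) + 2 * x * y * (- Rf g f 1 0 0 2) +
            y ^ 2 * (- Rf g f 2 0 0 2) <
          2 * (x' ^ 2 * (- Rf g f 1 0 0 1) + 2 * x' * y' * (- Rf g f 1 0 0 2) +
            y' ^ 2 * (- Rf g f 2 0 0 2)) + 2 * ν ^ 2) := by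
  obtain ⟨κ, hκ, h⟩ := h
  have hsq : Real.sqrt κ ^ 2 = κ := Real.sq_sqrt hκ.le
  refine ⟨Real.sqrt κ, Real.sqrt_pos.2 hκ, fun f => ?_⟩
  rw [hsq]
  obtain ⟨k, hk, hp⟩ := h f.pt _ (mem_chart_target _ _)
  have hb : ∀ f' : Fr g, f'.pt = f.pt →
      k ≤ - Rf g f' 1 0 0 1 ∧ - Rf g f' 1 0 0 1 < 2 * k + 2 * κ := by
    intro f' hf'
    obtain ⟨h1, h2, h3⟩ := frame_pair g (i₀ := (0 : Fin 3)) (i₁ := 1) (by decide) f'
    rw [hf'] at h2 h3
    obtain ⟨h4, h5⟩ := hp _ _ h1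
    rw [h2, h3] at h4 h5
    constructor <;> linarith
  have hq := quadratic_bounds_at f (fun f' hf' => ⟨(hb f' hf').1, (hb f' hf').2.le⟩)
  refine ⟨fun x y => ?_, fun x y x' y' hx hx' => ?_⟩
  · have := (hq x y).1
    nlinarith [sq_nonneg x, sq_nonneg y]
  · obtain ⟨f', hf', he⟩ := exists_quad f hx
    have h1 := (hb f' hf').2
    have h2 := (hq x' y').1
    rw [hx'] at h2
    rw [he] at h1
    linarith

end Vale.Agent.P207.Q.H717
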