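import Vale.Agent.P207.Q.H717.PDefs2
import Vale.Agent.P207.Q.H717.PPinch
import Vale.Agent.P207.Q.ConstSym

/-!
# P207: the class `PinchedA` on the orthonormal frame bundle
-/

open scoped Manifold ContDiff ENNReal Topology
open Bundle MeasureTheory Set Filter

set_option maxSynthPendingDepth 3

noncomputable section

namespace Vale.Agent.P207.Q.H717

open Vale.Agent.P255 (RMetric coefIn Gam Riem IsGeo Metric trans coefL)
open Vale.Agent.P207 Vale.Agent.P207.Q Vale.Agent.P207.Q.H892 Vale.Agent.P207.Q.H545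
open Vale.Agent.P207F (QuarterPinched PointwisePinched RelPinched PinchedA PointwisePinchedA
  gramDet ConstCurvature)


variable {n : ℕ} {M : Type} [TopologicalSpace M] [ChartedSpace (EV n) M]
  [IsManifold 𝓘(ℝ, EV n) ∞ M] {g : RMetric (EV n) M}

/-- an upper bound for orthonormal pairs gives the bound for all pairs -/
theorem sec_le_of_unit {a : M} {u : EV n} (hu : u ∈ (chartAt (EV n) a).target) {κ : ℝ}
    (hc : ∀ v w, (mt g).coef a u v v = 1 → (mt g).coef a u v w = 0 →
      (mt g).coef a u w w = 1 → (mt g).coef a u (D1.curvT ((mt g).coef a) u w v v) w ≤ κ)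
    (v w : EV n) :
    (mt g).coef a u (D1.curvT ((mt g).coef a) u w v v) w ≤
      κ * ((mt g).coef a u v v * (mt g).coef a u w w - (mt g).coef a u v w ^ 2) := by
  have h := (mt g).isMetricOn a
  set G := (mt g).coef a with hG0
  have hs := h.symm u hu
  have self : ∀ x y, D1.curvT G u x x y = 0 := by
    intro x y
    have e := D1.curvT_anti h hu x x y
    have e2 : (2 : ℝ) • D1.curvT G u x x y = 0 := by
      rw [two_smul]
      nth_rewrite 1 [e]
      simp
    exact (smul_eq_zero.1 e2).resolve_left (by norm_num)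
  by_cases hv : v = 0
  · subst hv; simp
  have hvp := h.pos u hu v hv
  set s := Real.sqrt (G u v v) with hsdef
  have hs0 : 0 < s := Real.sqrt_pos.2 hvp
  have hs2 : s * s = G u v v := Real.mul_self_sqrt hvp.le
  set c := G u v w / G u v v with hcdef
  set w' := w - c • v with hw'
  have hvw' : G u v w' = 0 := by
    simp only [hw', map_sub, map_smul, smul_eq_mul, hcdef]
    field_simp
    ring
  have hdecomp : w = w' + c • v := by simp [hw']
  have hG : G u w w = G u w' w' + c ^ 2 * G u v v := by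
    conv_lhs => rw [hdecomp]
    simp only [map_add, map_smul, add_apply, smul_apply, smul_eq_mul, hvw', hs w' v]
    ring
  have hGvw : G u v w = c * G u v v := by
    rw [hcdef]; field_simp
  have hcurv : G u (D1.curvT G u w v v) w = G u (D1.curvT G u w' v v) w' := by
    conv_lhs => rw [hdecomp]
    have e1 : G u (D1.curvT G u w' v v) v = 0 := by
      have := D1.curvT_skew h hu w' v v v
      linarith
    simp only [map_add, map_smul, add_apply, smul_apply, smul_eq_mul, self, smul_zero, add_zero,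
      e1, mul_zero]
  rw [hcurv, hG, hGvw]
  by_cases hw0 : w' = 0
  · rw [hw0]
    simp
    ring_nf
    exact le_rfl
  have hwp := h.pos u hu w' hw0
  set r := Real.sqrt (G u w' w') with hrdef
  have hr0 : 0 < r := Real.sqrt_pos.2 hwp
  have hr2 : r * r = G u w' w' := Real.mul_self_sqrt hwp.le
  have e := hc (s⁻¹ • v) (r⁻¹ • w') ?_ ?_ ?_
  · simp only [map_smul, smul_apply, smul_eq_mul] at e
    have e2 := mul_le_mul_of_nonneg_right e (by positivity : 0 ≤ (s * s) * (r * r))
    have e3 : G u (D1.curvT G u w' v v) w' ≤ κ * ((s * s) * (r * r)) := by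
      refine le_trans (le_of_eq ?_) e2
      field_simp
    rw [← hs2, ← hr2]
    linarith
  · simp only [map_smul, smul_apply, smul_eq_mul]
    rw [← hs2]
    field_simp
  · simp only [map_smul, smul_apply, smul_eq_mul, hvw']
    ring
  · simp only [map_smul, smul_apply, smul_eq_mul]
    rw [← hr2]
    field_simp

/-- an upper bound on frames gives the bound for all pairs in all charts -/
theorem sec_le_of_frames {i₀ i₁ : Fin n} (hi : i₀ ≠ i₁) {κ : ℝ}
    (h : ∀ f : Fr g, Rf g f i₁ i₀ i₀ i₁ ≤ κ) (a : M) {u : EV n}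
    (hu : u ∈ (chartAt (EV n) a).target) (v w : EV n) :
    coefIn g a u (Riem (coefIn g a) u v w w) v ≤ κ * gramDet g a u v w := by
  have key : ∀ v w : EV n, (mt g).coef a u v v = 1 → (mt g).coef a u v w = 0 →
      (mt g).coef a u w w = 1 → (mt g).coef a u (D1.curvT ((mt g).coef a) u w v v) w ≤ κ := by
    intro v w hv hvw hw
    have hx : (chartAt (EV n) a).symm u ∈ (chartAt (EV n) a).source :=
      (chartAt (EV n) a).map_target hu
    set x := (chartAt (EV n) a).symm u with hxdef
    have hux : chartAt (EV n) a x = u := (chartAt (EV n) a).right_inv hu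
    set T : EV n → EV n := fun v => fderiv ℝ (trans (EV n) a x) u v with hT
    have hin : ∀ v w, innerB g x (T v) (T w) = coefIn g a u v w := by
      intro v w
      have h1 := inner_chFs (ι := Fin 2) g a (y := (u, ![v, w])) hu 0 1
      exact h1
    obtain ⟨f, hf, hf0, hf1⟩ := exists_frame_pair (g := g) hi x (v := T v) (w := T w)
      (by rw [hin]; exact hv) (by rw [hin]; exact hvw) (by rw [hin]; exact hw)
    have hfs : f.pt ∈ (chartAt (EV n) a).source := by rw [hf]; exact hx
    have h2 := Rf_eq f i₁ i₀ i₀ i₁ hfs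
    have h0 := h f
    rw [h2] at h0
    have hc1 : (chF a f.1).1 = u := by
      change chartAt (EV n) a f.pt = u
      rw [hf]; exact hux
    have hc : ∀ i v, f.e i = T v → (chF a f.1).2 i = v := by
      intro i v hv
      change fderiv ℝ (trans (EV n) f.pt a) (chartAt (EV n) f.pt f.pt) (f.e i) = v
      rw [hv, hf, hT]
      have := fderiv_trans_forth a hx v
      rw [hux] at this
      exact this
    rw [hc1, hc i₀ v hf0, hc i₁ w hf1] at h0
    exact h0
  have h3 := sec_le_of_unit hu key w v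
  have h4 : coefIn g a u (Riem (coefIn g a) u v w w) v =
      (mt g).coef a u (D1.curvT ((mt g).coef a) u v w w) v := by
    rw [← D1.riem_mt g a hu]
    rfl
  have h5 : gramDet g a u v w = (mt g).coef a u w w * (mt g).coef a u v v -
      (mt g).coef a u w v ^ 2 := by
    have h6 : coefIn g a u v w = (mt g).coef a u w v :=
      ((mt g).isMetricOn a).symm u hu v w
    unfold gramDet
    rw [h6]
    change (mt g).coef a u v v * (mt g).coef a u w w - _ = _
    ring
  rw [h4, h5]
  exact h3

theorem negCurvature_of_A (h : PinchedA g) : NegCurvature g := by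
  obtain ⟨κ, hκ, h⟩ := h
  intro a u hu v w hvw
  obtain ⟨k, hk, hp⟩ := h a u hu
  have h1 := (hp v w hvw).2
  have h2 := gramDet_pos g hu hvw
  have h3 : 0 < k := hκ.trans_le hk
  nlinarith

theorem negCurvature_of_pointwiseA (h : PointwisePinchedA g) : NegCurvature g := by
  intro a u hu v w hvw
  obtain ⟨k, hk, hp⟩ := h a u hu
  have h1 := (hp v w hvw).2
  have h2 := gramDet_pos g hu hvw
  nlinarith

theorem RelPinched.pinchedA (h : RelPinched g) : PinchedA g := by
  obtain ⟨κ, hκ, h⟩ := h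
  refine ⟨κ, hκ, fun a u hu => ?_⟩
  obtain ⟨k, hk, hp⟩ := h a u hu
  refine ⟨k, hk, fun v w hvw => ⟨lt_of_le_of_lt ?_ (hp v w hvw).1, (hp v w hvw).2⟩⟩
  have h2 := gramDet_pos g hu hvw
  nlinarith

theorem QuarterPinched.pinchedA (h : QuarterPinched g) : PinchedA g :=
  RelPinched.pinchedA h.relPinched

theorem PointwisePinched.pointwiseA (h : PointwisePinched g) : PointwisePinchedA g := by
  intro a u hu
  obtain ⟨k, hk, hp⟩ := h a u hu
  refine ⟨k, hk, fun v w hvw => ⟨le_trans ?_ (hp v w hvw).1, (hp v w hvw).2⟩⟩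
  have h2 := gramDet_pos g hu hvw
  nlinarith

/-- pointwise pinching gives the class on a closed manifold -/
theorem PointwisePinchedA.pinchedA [NeZero n] [CompactSpace M] [T2Space M] {i₀ i₁ : Fin n}
    (hi : i₀ ≠ i₁) (h : PointwisePinchedA g) : PinchedA g := by
  obtain ⟨lam, Lam, hl, -, hb⟩ := exists_bounds_of_neg hi (negCurvature_of_pointwiseA h)
  have hs := fun (a : M) (u : EV n) (hu : u ∈ (chartAt (EV n) a).target) (v w : EV n) =>
    sec_le_of_frames (g := g) hi (κ := -lam ^ 2) (fun f => by linarith [(hb f).1]) a hu v w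
  refine ⟨lam ^ 2, by positivity, fun a u hu => ?_⟩
  obtain ⟨k, hk, hp⟩ := h a u hu
  refine ⟨max k (lam ^ 2), le_max_right _ _, fun v w hvw => ⟨?_, ?_⟩⟩
  · have h2 := gramDet_pos g hu hvw
    have h3 := (hp v w hvw).1
    have h4 : k ≤ max k (lam ^ 2) := le_max_left _ _
    have h5 : 0 < lam ^ 2 := by positivity
    have h6 : 14 / 5 * k < 14 / 5 * max k (lam ^ 2) + 6 / 5 * lam ^ 2 := by linarith
    have h7 := mul_lt_mul_of_pos_right h6 h2
    linarith
  · rcases le_total k (lam ^ 2) with h4 | h4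
    · rw [max_eq_right h4]
      have := hs a u hu v w
      linarith
    · rw [max_eq_left h4]
      exact (hp v w hvw).2

/-- **The class on frames.** -/
theorem frames_A {M : Type} [TopologicalSpace M] [ChartedSpace (EV 3) M]
    [IsManifold 𝓘(ℝ, EV 3) ∞ M] {g : RMetric (EV 3) M} (h : PinchedA g) :
    ∃ ν : ℝ, 0 < ν ∧ ∀ f : Fr g,
      (∀ x y : ℝ, ν ^ 2 * (x ^ 2 + y ^ 2) ≤ x ^ 2 * (- Rf g f 1 0 0 1) +
        2 * x * y * (- Rf g f 1 0 0 2) + y ^ 2 * (- Rf g f 2 0 0 2)) ∧
      (∀ x y x' y' : ℝ, x ^ 2 + y ^ 2 = 1 → x' ^ 2 + y' ^ 2 = 1 →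
        x ^ 2 * (- Rf g f 1 0 0 1) + 2 * x * y * (- Rf g f 1 0 0 2) +
            y ^ 2 * (- Rf g f 2 0 0 2) <
          14 / 5 * (x' ^ 2 * (- Rf g f 1 0 0 1) + 2 * x' * y' * (- Rf g f 1 0 0 2) +
            y' ^ 2 * (- Rf g f 2 0 0 2)) + (4 - 14 / 5) * ν ^ 2) := by
  obtain ⟨κ, hκ, h⟩ := h
  have hsq : Real.sqrt κ ^ 2 = κ := Real.sq_sqrt hκ.le
  refine ⟨Real.sqrt κ, Real.sqrt_pos.2 hκ, fun f => ?_⟩
  rw [hsq]
  obtain ⟨k, hk, hp⟩ := h f.pt _ (mem_chart_target _ _)
  have hb : ∀ f' : Fr g, f'.pt = f.pt →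
      k ≤ - Rf g f' 1 0 0 1 ∧ - Rf g f' 1 0 0 1 < 14 / 5 * k + 6 / 5 * κ := by
    intro f' hf'
    obtain ⟨h1, h2, h3⟩ := frame_pair g (i₀ := (0 : Fin 3)) (i₁ := 1) (by decide) f'
    rw [hf'] at h2 h3
    obtain ⟨h4, h5⟩ := hp _ _ h1
    rw [h2, h3] at h4 h5
    constructor <;> linarith
  have hq := quadratic_bounds_at f (fun f' hf' => ⟨(hb f' hf').1, (hb f' hf').2.le⟩)
  refine ⟨fun x y => ?_, fun x y x' y' hx hx' => ?_⟩
  · have := (hq x y).1
    nlinarith [sq_nonneg x, sq_nonneg y]
  · obtain ⟨f', hf', he⟩ := exists_quad f hx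
    have h1 := (hb f' hf').2
    have h2 := (hq x' y').1
    rw [hx'] at h2
    rw [he] at h1
    linarith

end Vale.Agent.P207.Q.H717
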