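import Vale.Agent.P207.Q.H413.CoreRel
import Vale.Agent.P207.Q.H717.PPinchA
import Vale.Agent.P207.Q.H717.MaxA
import Vale.Agent.P207.Q.H717.UDataL
import Vale.Agent.P207.Q.Rel.Mult145

/-!
# P207, n = 3: the core theorem for the class `PinchedA`
-/

open scoped Manifold ContDiff ENNReal Topology Matrix
open Bundle MeasureTheory Set Filter

set_option maxSynthPendingDepth 3
set_option linter.unusedSectionVars false

noncomputable section

namespace Vale.Agent.P207.Q.H717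

open Vale.Agent.P255 (RMetric coefIn Gam Riem IsGeo Metric trans coefL)
open Vale.Agent.P207 Vale.Agent.P207.Q Vale.Agent.P207.Q.H545 Vale.Agent.P207.Q.H892
open Vale.Agent.P207.Q.H413
open Vale.Agent.P207.Q.H791 (RicC)
open Vale.Agent.P207F (ConstCurvature PinchedA)

/-- **Core.** For a metric of the class `PinchedA` on a closed 3-manifold, equality of the
Liouville entropy and the topological entropy forces constant curvature. -/
theorem core_A {M : Type} [TopologicalSpace M] [ChartedSpace (EV 3) M]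
    [IsManifold 𝓘(ℝ, EV 3) ∞ M] [CompactSpace M] [T2Space M] [ConnectedSpace M]
    [MeasurableSpace M] [BorelSpace M] (g : RMetric (EV 3) M) (hq : PinchedA g)
    (φ : ℝ → P207.UT g → P207.UT g) (μ : Measure M) (m : Measure (P207.UT g))
    (hφ : P207.IsGeoFlow g φ) (hμ : P207.IsRiemVol g μ) (hm : P207.IsLiouville g μ m)
    (heq : P207.ksEntropy m (φ 1) = P207.topEntropy (φ 1)) : ∃ κ, ConstCurvature g κ := by
  obtain ⟨hsc, hne, hmp, mP, hP, hprob, hop⟩ := exists_setting hφ hμ hm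
  have hneg : NegCurvature g := negCurvature_of_A hq
  obtain ⟨lam, Lam, hl, hle, hb⟩ :=
    exists_bounds_of_neg (g := g) (i₀ := (0 : Fin 3)) (i₁ := 1) (by decide) hneg
  have hquad := fun f x y => quadratic_bounds hb f x y
  obtain ⟨ν, hν, hrel⟩ := frames_A hq
  have hνL : ν ≤ Lam := by
    obtain ⟨f⟩ := hne
    have h1 := (hrel f).1 1 0
    have h2 := (hquad f 1 0).2
    have h3 : ν ^ 2 ≤ Lam ^ 2 := by nlinarith
    exact le_of_sq_le_sq h3 (hl.le.trans hle)
  let H := horFlows g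
  have klo : ∀ f (x y : ℝ), ν ^ 2 * (x ^ 2 + y ^ 2) ≤ (cK hP hφ hmp).K 0 0 f * x ^ 2 +
      2 * (cK hP hφ hmp).K 0 1 f * (x * y) + (cK hP hφ hmp).K 1 1 f * y ^ 2 := fun f x y => by
    rw [cK_K00, cK_K01, cK_K11]; linarith [(hrel f).1 x y]
  have kup : ∀ f (x y x' y' : ℝ), x ^ 2 + y ^ 2 = 1 → x' ^ 2 + y' ^ 2 = 1 →
      (cK hP hφ hmp).K 0 0 f * x ^ 2 +
        2 * (cK hP hφ hmp).K 0 1 f * (x * y) + (cK hP hφ hmp).K 1 1 f * y ^ 2 <
      14 / 5 * ((cK hP hφ hmp).K 0 0 f * x' ^ 2 + 2 * (cK hP hφ hmp).K 0 1 f * (x' * y') +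
        (cK hP hφ hmp).K 1 1 f * y' ^ 2) + 6 / 5 * ν ^ 2 := fun f x y x' y' h1 h2 => by
    rw [cK_K00, cK_K01, cK_K11]; linarith [(hrel f).2 x y x' y' h1 h2]
  -- the maximum principle
  have hmax : ∀ u v w : C(Fr g, ℝ), RicC (flw H .X) u v w ((cK hP hφ hmp).K 0 0)
      ((cK hP hφ hmp).K 0 1) ((cK hP hφ hmp).K 1 1) →
      (∀ p (x y : ℝ), ν * (x ^ 2 + y ^ 2) ≤
        u p * x ^ 2 + 2 * v p * (x * y) + w p * y ^ 2) →
      ∀ p (x y x' y' : ℝ), x ^ 2 + y ^ 2 = 1 → x' ^ 2 + y' ^ 2 = 1 →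
        u p * x ^ 2 + 2 * v p * (x * y) + w p * y ^ 2 <
        14 / 5 * (u p * x' ^ 2 + 2 * v p * (x' * y') + w p * y' ^ 2) - 4 / 5 * ν := by
    intro u v w hR hlo p x y x' y' hx hx'
    have := form_lt (a := 14 / 5) hR
      (fun p => (frTF H hP hφ hmp H.hcomp dense_SmFr).zero .X p) hν (by norm_num) hlo
      (fun f x y x' y' h1 h2 => by linarith [kup f x y x' y' h1 h2]) p x y x' y' hx hx'
    linarith
  obtain ⟨D, hlo, hup, hric⟩ := exists_UDataL (cK hP hφ hmp)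
    (frTF H hP hφ hmp H.hcomp dense_SmFr) hν hνL klo
    (fun f x y => by
      rw [cK_K00, cK_K01, cK_K11]; linarith [(hquad f x y).2])
    (fun u v w hR h1 => Rel.exists_flow_mult145 hR hν h1 (hmax u v w hR h1) klo kup)
  obtain ⟨l, dl, jl, hc⟩ := Rel.exists_multiplier145 D hν hlo
    (hmax _ _ _ (ricC_of_UData D hric) hlo) klo kup
  exact (const_of_UData_var hneg hμ hm heq D hν hνL hlo hup hric jl hc).1

end Vale.Agent.P207.Q.H717
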