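import Vale.Agent.P207.Q.H413.CoreRel
import Vale.Agent.P207.Q.H717.PPinch
import Vale.Agent.P207.Q.H717.UDataRP

/-!
# P207, n = 3: the core theorem for relatively pinched metrics
-/

open scoped Manifold ContDiff ENNReal Topology Matrix
open Bundle MeasureTheory Set Filter

set_option maxSynthPendingDepth 3
set_option linter.unusedSectionVars false

noncomputable section

namespace Vale.Agent.P207.Q.H717

open Vale.Agent.P255 (RMetric coefIn Gam Riem IsGeo Metric trans coefL)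
open Vale.Agent.P207 Vale.Agent.P207.Q Vale.Agent.P207.Q.H545 Vale.Agent.P207.Q.H892
open Vale.Agent.P207.Q.H413
open Vale.Agent.P207F (ConstCurvature RelPinched)

/-- **Core, relative pinching.** For a relatively pinched metric on a closed 3-manifold,
equality of the Liouville entropy and the topological entropy forces constant curvature. -/
theorem core_rel {M : Type} [TopologicalSpace M] [ChartedSpace (EV 3) M]
    [IsManifold 𝓘(ℝ, EV 3) ∞ M] [CompactSpace M] [T2Space M] [ConnectedSpace M]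
    [MeasurableSpace M] [BorelSpace M] (g : RMetric (EV 3) M) (hq : RelPinched g)
    (φ : ℝ → P207.UT g → P207.UT g) (μ : Measure M) (m : Measure (P207.UT g))
    (hφ : P207.IsGeoFlow g φ) (hμ : P207.IsRiemVol g μ) (hm : P207.IsLiouville g μ m)
    (heq : P207.ksEntropy m (φ 1) = P207.topEntropy (φ 1)) : ∃ κ, ConstCurvature g κ := by
  obtain ⟨hsc, hne, hmp, mP, hP, hprob, hop⟩ := exists_setting hφ hμ hm
  have hneg : NegCurvature g := negCurvature_of_rel hq
  obtain ⟨lam, Lam, hl, hle, hb⟩ :=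
    exists_bounds_of_neg (g := g) (i₀ := (0 : Fin 3)) (i₁ := 1) (by decide) hneg
  have hquad := fun f x y => quadratic_bounds hb f x y
  obtain ⟨ν, hν, hrel⟩ := rel_frames hq
  -- the lower bound may be taken to be `max ν lam`; we take `ν`
  have hL : ∀ f : Fr g, ∀ x y : ℝ, ν ^ 2 * (x ^ 2 + y ^ 2) ≤ x ^ 2 * (- Rf g f 1 0 0 1) +
      2 * x * y * (- Rf g f 1 0 0 2) + y ^ 2 * (- Rf g f 2 0 0 2) := fun f => (hrel f).1
  have hνL : ν ≤ Lam := by
    obtain ⟨f⟩ := hne
    have h1 := hL f 1 0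
    have h2 := (hquad f 1 0).2
    have h3 : ν ^ 2 ≤ Lam ^ 2 := by nlinarith
    exact le_of_sq_le_sq h3 (hl.le.trans hle)
  let H := horFlows g
  have klo : ∀ f x y, ν ^ 2 * (x ^ 2 + y ^ 2) ≤ (cK hP hφ hmp).K 0 0 f * x ^ 2 +
      2 * (cK hP hφ hmp).K 0 1 f * (x * y) + (cK hP hφ hmp).K 1 1 f * y ^ 2 := fun f x y => by
    rw [cK_K00, cK_K01, cK_K11]; linarith [hL f x y]
  have kup : ∀ f (x y x' y' : ℝ), x ^ 2 + y ^ 2 = 1 → x' ^ 2 + y' ^ 2 = 1 →
      (cK hP hφ hmp).K 0 0 f * x ^ 2 +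
        2 * (cK hP hφ hmp).K 0 1 f * (x * y) + (cK hP hφ hmp).K 1 1 f * y ^ 2 <
      2 * ((cK hP hφ hmp).K 0 0 f * x' ^ 2 + 2 * (cK hP hφ hmp).K 0 1 f * (x' * y') +
        (cK hP hφ hmp).K 1 1 f * y' ^ 2) + 2 * ν ^ 2 := fun f x y x' y' h1 h2 => by
    rw [cK_K00, cK_K01, cK_K11]; linarith [(hrel f).2 x y x' y' h1 h2]
  obtain ⟨D, hlo, hup, hric, hbb⟩ := exists_UData_rel (cK hP hφ hmp)
    (frTF H hP hφ hmp H.hcomp dense_SmFr) hν le_rfl hνL klo
    (fun f x y => by
      rw [cK_K00, cK_K01, cK_K11]; linarith [(hquad f x y).2]) kup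
  obtain ⟨l, dl, jl, hc⟩ := exists_multiplier D hν hlo hbb klo kup
  exact (const_of_UData_var hneg hμ hm heq D hν hνL hlo hup hric jl hc).1

end Vale.Agent.P207.Q.H717
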