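import Vale.Agent.P207.FDefs3

/-!
# P207: pointwise and relatively pinched metrics
-/

open scoped Manifold ContDiff ENNReal
open Bundle MeasureTheory Set Filter

noncomputable section

namespace Vale.Agent.P207F

open Vale.Agent.P255 (RMetric innerAt coefIn Gam Riem IsGeo)

variable {E : Type} [NormedAddCommGroup E] [NormedSpace ℝ E] {M : Type} [TopologicalSpace M]
  [ChartedSpace E M] [IsManifold 𝓘(ℝ, E) ∞ M]

/-- Pointwise `12/5`-pinching: at every point there is `k > 0` (depending on the point) such that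
all sectional curvatures at this point satisfy `-(12/5) k ≤ K ≤ -k`. -/
def PointwisePinched (g : RMetric E M) : Prop :=
  ∀ (a : M), ∀ u ∈ (chartAt E a).target, ∃ k : ℝ, 0 < k ∧ ∀ v w : E,
    LinearIndependent ℝ ![v, w] →
      -(12 / 5 * k) * gramDet g a u v w ≤ coefIn g a u (Riem (coefIn g a) u v w w) v ∧
      coefIn g a u (Riem (coefIn g a) u v w w) v ≤ -k * gramDet g a u v w

/-- Relative pinching: for some constant `κ > 0`, at every point there is `k ≥ κ` (depending on the
point) such that all sectional curvatures at this point satisfy `-(2k + 2κ) < K ≤ -k`. -/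
def RelPinched (g : RMetric E M) : Prop :=
  ∃ κ : ℝ, 0 < κ ∧ ∀ (a : M), ∀ u ∈ (chartAt E a).target, ∃ k : ℝ, κ ≤ k ∧ ∀ v w : E,
    LinearIndependent ℝ ![v, w] →
      -(2 * k + 2 * κ) * gramDet g a u v w < coefIn g a u (Riem (coefIn g a) u v w w) v ∧
      coefIn g a u (Riem (coefIn g a) u v w w) v ≤ -k * gramDet g a u v w

theorem QuarterPinched.relPinched {g : RMetric E M} (h : QuarterPinched g) : RelPinched g := by
  obtain ⟨k, hk, hp⟩ := h
  refine ⟨k, hk, fun a u hu => ⟨k, le_rfl, fun v w hvw => ?_⟩⟩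
  have h1 := hp a u hu v w hvw
  rw [show 2 * k + 2 * k = 4 * k by ring]
  exact h1

end Vale.Agent.P207F
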